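import Vale.Agent.P352X.R.CONM.A
import Vale.Agent.P352Z.P352X.R.Br

open Vale.Agent.P352G

/-!
# P352X, row CONM, part A: real test functions, factorization of `w(T(h,k), Θ)` (helper90)
-/

set_option linter.all false

open MeasureTheory Filter Topology Set
open scoped SchwartzMap ComplexConjugate ContDiff

namespace Vale.Agent.P352X.Conm

open Vale.Agent.P352 Vale.Agent.P352.GF Vale.Agent.P352.BW Vale.Agent.P352.H246
open Vale.Agent.P352.H496 Vale.Agent.P352.H755 Vale.Agent.P352.H15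
open UniformSpace (Completion)
open Complex (I)

noncomputable section

section tst

variable {E F : Type*} [NormedAddCommGroup E] [NormedSpace ℝ E] [NormedAddCommGroup F]
  [NormedSpace ℝ F]

end tst

variable {D : Type*} [NormedAddCommGroup D] [InnerProductSpace ℂ D] [GrD D] {c : CtxZ D}

lemma wT_symmZ {e : Bool} {w : I2 → I2 → S2 →L[ℂ] Completion D} (hw : TP2 c.Q c.T e w) (h k : V) :
    wT w h k = wT w k h := by
  unfold wT
  rw [Finset.sum_comm]
  refine Finset.sum_congr rfl fun m _ => Finset.sum_congr rfl fun n _ =>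
    Finset.sum_congr rfl fun j _ => ?_
  rw [hw.ind (n, m)]
  congr 2
  ring

lemma T_fldZ (c : CtxZ D) (m n : Ix) : c.Q.fld (c.T m n) := c.Q.bose_fld _ (c.hT.bose m n)

lemma T_smulZ (c : CtxZ D) (m n : Ix) (a : ℂ) {f : Fn} (hf : IsTest f) (v : D) :
    c.T m n (fun x => a * f x) v = a • c.T m n f v := by
  have h0 : IsTest fun _ => (0 : ℂ) := ⟨0, rfl⟩
  have e0 : c.T m n (fun _ => (0 : ℂ)) v = 0 := by
    have := c.Q.lin _ _ _ 1 v (T_fldZ c m n) h0 h0
    simp only [mul_zero, add_zero, one_smul] at this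
    exact left_eq_add.1 this
  have := c.Q.lin _ _ _ a v (T_fldZ c m n) h0 hf
  simpa [e0] using this

lemma Tf_hkZ (c : CtxZ D) (h k : V) {f : Fn} (hf : IsTest f) (v : D) : c.Tf (hk h k f) v =
    ∑ m, ∑ n, ((eta m * h m * (eta n * k n) : ℝ) : ℂ) • c.T m n f v :=
  Finset.sum_congr rfl fun m _ => Finset.sum_congr rfl fun n _ => T_smulZ c m n _ hf v

lemma Thf_eqZ (c : CtxZ D) (f : Fn) (v : D) :
    c.Thf f v = ∑ j, ((eta j : ℝ) : ℂ) • c.T j j f v := rfl

lemma herm'Z (c : CtxZ D) (m n : Ix) {f : Fn} (hf : IsTest f) (v u : D) :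
    inner ℂ v (c.T m n f u) = inner ℂ (c.T m n (bar f) v) u := by
  rw [c.hT.herm m n _ v u (isTest_bar hf), bar_bar]

lemma Thf_hermZ (c : CtxZ D) {f : Fn} (hf : IsTest f) (v u : D) :
    inner ℂ (c.Thf f v) u = inner ℂ v (c.Thf (bar f) u) := by
  simp only [Thf_eqZ, sum_inner, inner_sum, inner_smul_left, inner_smul_right, Complex.conj_ofReal,
    c.hT.herm _ _ _ _ _ hf]

lemma Tf_hermZ (c : CtxZ D) (h k : V) {f : Fn} (hf : IsTest f) (v u : D) :
    inner ℂ (c.Tf (hk h k f) v) u = inner ℂ v (c.Tf (hk h k (bar f)) u) := by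
  simp only [Tf_hkZ c h k hf, Tf_hkZ c h k (isTest_bar hf), sum_inner, inner_sum, inner_smul_left,
    inner_smul_right, Complex.conj_ofReal, c.hT.herm _ _ _ _ _ hf]

variable {w : I2 → I2 → S2 →L[ℂ] Completion D}

/-- the `T` leg is later -/
lemma facAZ (hw : TP2 c.Q c.T false w) (h k : V) {g u : V → ℝ} (hg : Tst g) (hu : Tst u)
    (hl : Late (tsupport g) (tsupport u)) (y : D) :
    inner ℂ (wT w h k (PP g u)) (y : Completion D) =
      inner ℂ (c.Tf (hk h k (cx g)) c.Q.vac) (c.Thf (cx u) y) := by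
  have e : ∀ m n j, w (m, n) (j, j) (PP g u) =
      ((c.T j j (cx u) (c.T m n (cx g) c.Q.vac) : D) : Completion D) := by
    intro m n j
    have := hw.fac (m, n) (j, j) (sr g) (sr u) (PP g u) (fun x y => by
      rw [PP_ap hg hu]
      have e1 : sr g x = cx g x := congrFun (ev_sr hg) x
      have e2 : sr u y = cx u y := congrFun (ev_sr hu) y
      rw [e1, e2]; simp [cx]) (by rwa [tsupp_sr hg, tsupp_sr hu])
    simpa [ev_sr hg, ev_sr hu] using this
  simp only [wT_ap, e, sum_inner, inner_smul_left, Complex.conj_ofReal, Completion.inner_coe,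
    Tf_hkZ c h k (test_cx hg), Thf_eqZ, inner_sum, inner_smul_right,
    c.hT.herm _ _ _ _ _ (test_cx hu), bar_cx, Finset.mul_sum]
  symm
  rw [Finset.sum_comm]
  refine Finset.sum_congr rfl fun m _ => ?_
  rw [Finset.sum_comm]
  refine Finset.sum_congr rfl fun n _ => Finset.sum_congr rfl fun j _ => ?_
  push_cast
  ring

/-- the `Θ` leg is later -/
lemma facBZ (hw : TP2 c.Q c.T false w) (h k : V) {g u : V → ℝ} (hg : Tst g) (hu : Tst u)
    (hl : Late (tsupport u) (tsupport g)) (y : D) :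
    inner ℂ (wT w h k (PP g u)) (y : Completion D) =
      inner ℂ (c.Thf (cx u) c.Q.vac) (c.Tf (hk h k (cx g)) y) := by
  have e : ∀ m n j, w (m, n) (j, j) (PP g u) =
      ((c.T m n (cx g) (c.T j j (cx u) c.Q.vac) : D) : Completion D) := by
    intro m n j
    rw [hw.swap (m, n) (j, j) (PP g u) (PP u g) fun x y => by
      rw [PP_ap hg hu, PP_ap hu hg, mul_comm]]
    have := hw.fac (j, j) (m, n) (sr u) (sr g) (PP u g) (fun x y => by
      rw [PP_ap hu hg]
      have e1 : sr g y = cx g y := congrFun (ev_sr hg) y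
      have e2 : sr u x = cx u x := congrFun (ev_sr hu) x
      rw [e1, e2]; simp [cx]) (by rwa [tsupp_sr hg, tsupp_sr hu])
    simpa [ev_sr hg, ev_sr hu] using this
  simp only [wT_ap, e, sum_inner, inner_smul_left, Complex.conj_ofReal, Completion.inner_coe,
    Tf_hkZ c h k (test_cx hg), Thf_eqZ, inner_sum, inner_smul_right,
    c.hT.herm _ _ _ _ _ (test_cx hg), bar_cx, Finset.mul_sum]
  refine Finset.sum_congr rfl fun m _ => Finset.sum_congr rfl fun n _ =>
    Finset.sum_congr rfl fun j _ => ?_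
  push_cast
  ring

/-- `T(h,k)(g)` commutes with `Θ(f)` -/
lemma commZ (c : CtxZ D) (h k : V) {g f : Fn} (hg : IsTest g) (hf : IsTest f) (hs : Sep g f)
    (x : D) : inner ℂ x (c.Tf (hk h k g) (c.Thf f c.Q.vac)) =
      inner ℂ (c.Thf (bar f) x) (c.Tf (hk h k g) c.Q.vac) := by
  have hs' : Sep (bar g) (bar f) := by
    have e : ∀ u : Fn, tsupport (bar u) = tsupport u := fun u => by
      unfold tsupport; congr 1; ext x; simp [bar]
    unfold GF.Sep
    rwa [e, e]
  have e1 : inner ℂ x (c.Tf (hk h k g) (c.Thf f c.Q.vac)) =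
      inner ℂ (c.Tf (hk h k (bar g)) x) (c.Thf f c.Q.vac) := by
    rw [Tf_hermZ c h k (isTest_bar hg), bar_bar]
  have e2 : inner ℂ (c.Thf (bar f) x) (c.Tf (hk h k g) c.Q.vac) =
      inner ℂ x (c.Thf f (c.Tf (hk h k g) c.Q.vac)) := by
    rw [Thf_hermZ c (isTest_bar hf), bar_bar]
  rw [e1]
  simp only [Tf_hkZ c h k hg, Tf_hkZ c h k (isTest_bar hg), Thf_eqZ, sum_inner, inner_sum,
    inner_smul_left, inner_smul_right, Complex.conj_ofReal, Finset.mul_sum]
  rw [Finset.sum_comm]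
  refine Finset.sum_congr rfl fun m _ => ?_
  rw [Finset.sum_comm]
  refine Finset.sum_congr rfl fun n _ => Finset.sum_congr rfl fun j _ => ?_
  rw [herm'Z c j j hf, ← c.Q.loc _ _ _ _ x (c.hT.bose m n) (T_fldZ c j j) (isTest_bar hg)
    (isTest_bar hf) hs', c.hT.herm m n _ _ _ (isTest_bar hg), bar_bar]
  ring

/-- the pairing is small when `T(h,k)(g) Ω` is small -/
lemma err0Z (hw : TP2 c.Q c.T false w) {u : V → ℝ} (hu : Tst u) {f : Fn} (hf : IsTest f) :
    ∃ C : ℝ, 0 ≤ C ∧ ∀ (h k : V) (g : V → ℝ), Tst g → (Late (tsupport g) (tsupport u) ∨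
      (Late (tsupport u) (tsupport g) ∧ Sep (cx g) f)) →
      ‖inner ℂ (wT w h k (PP g u)) (c.Th f)‖ ≤ C * ‖c.Tf (hk h k (cx g)) c.Q.vac‖ := by
  refine ⟨‖c.Thf (cx u) (c.Thf f c.Q.vac)‖ + ‖c.Thf (bar f) (c.Thf (cx u) c.Q.vac)‖,
    by positivity, fun h k g hg hl => ?_⟩
  rcases hl with hl | ⟨hl, hs⟩
  · rw [CtxZ.Th, facAZ hw h k hg hu hl]
    refine (norm_inner_le_norm _ _).trans ?_
    rw [mul_comm]
    gcongr
    exact le_add_of_nonneg_right (norm_nonneg _)
  · rw [CtxZ.Th, facBZ hw h k hg hu hl, commZ c h k (test_cx hg) hf hs]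
    refine (norm_inner_le_norm _ _).trans ?_
    gcongr
    exact le_add_of_nonneg_left (norm_nonneg _)

end

end Vale.Agent.P352X.Conm
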