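import Vale.Agent.P352X.R.CONM.C
import Vale.Agent.P352Z.P352X.R.CONM.B

open Vale.Agent.P352G

/-!
# P352X, row CONM, part C: the divergence of the pair test functions (helper90)
-/

set_option linter.all false

open MeasureTheory Filter Topology Set
open scoped SchwartzMap ComplexConjugate ContDiff

namespace Vale.Agent.P352X.Conm

open Vale.Agent.P352 Vale.Agent.P352.GF Vale.Agent.P352.BW Vale.Agent.P352.H246
open Vale.Agent.P352.H496 Vale.Agent.P352.H755 Vale.Agent.P352.H15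
open UniformSpace (Completion)
open Complex (I)

noncomputable section

variable {D : Type*} [NormedAddCommGroup D] [InnerProductSpace ℂ D] [GrD D] {c : CtxZ D}

/-! ### scaled cutoffs -/

variable {κ : P3 → ℝ} {L : ℝ}

variable {w : I2 → I2 → S2 →L[ℂ] Completion D}

/-- **The thin part is a divergence up to fluxes.** -/
theorem thin_limZ (hg : GRPZ c) (hw : TP2 c.Q c.T false w) (hκ : Cut κ) (i : Fin 2)
    {ρ A A1 B B1 : ℝ → ℝ} {u : V → ℝ} {f : Fn} {b b0 : ℝ} (hρ : Tst ρ) (hA : Tst A) (hA1 : Tst A1)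
    (hB : Tst B) (hB1 : Tst B1) (hu : Tst u) (hf : In {z | be z < b} f)
    (eA : deriv A = fun t => ρ t + A1 t) (eB : deriv B = fun t => A t + B1 t)
    (sA : tsupport A ⊆ Ici b) (sB : tsupport B ⊆ Ici b) (sA1 : tsupport A1 ⊆ Ioi b0)
    (sB1 : tsupport B1 ⊆ Ioi b0) (su : tsupport u ⊆ {z | be z ≤ b0}) :
    Tendsto (fun L => inner ℂ (dvT w va (PP (rp (xm i (kL κ L)) A) u) -
      dvT w va (PP (rp (kL κ L) A) (xv i u)) + dvT w (ex i) (PP (rp (kL κ L) B) u)) (c.Th f) -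
      inner ℂ (wT w va va (PP (rp (xm i (kL κ L)) ρ) u) -
        wT w va va (PP (rp (kL κ L) ρ) (xv i u))) (c.Th f)) atTop (𝓝 0) := by
  have hu' := tst_xv i hu
  have su' : tsupport (xv i u) ⊆ {z | be z ≤ b0} := tsupport_mul_subset_right.trans su
  have k1 := hκ.1
  have t1 := errUZ hg hw wt_a wt_a (p := 0 + 1) (by norm_num) (tst_xm i k1) hA1 hu hf.1 sA1 su
  have t2 := errUZ hg hw wt_a wt_a (p := 0) (by norm_num) k1 hA1 hu' hf.1 sA1 su'
  have t3 := errUZ hg hw wt_a (wt_e i) (p := 0) (by norm_num) k1 hB1 hu hf.1 sB1 su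
  have t4 := errFZ hg hw wt_b wt_a (p := -2 + 1) (by norm_num) (tst_xm i (tst_da k1)) hA hu hf
    (cut_xm i (cut_fd hκ _)) sA
  have t5 := errFZ hg hw wt_b wt_a (p := -2) (by norm_num) (tst_da k1) hA hu' hf (cut_fd hκ _) sA
  have t6 := errFZ hg hw wt_b (wt_e i) (p := -2) (by norm_num) (tst_da k1) hB hu hf
    (cut_fd hκ _) sB
  have t7 := fun j => errFZ hg hw (wt_e j) wt_a (p := -1 + 1) (by norm_num)
    (tst_xm i (tst_dj j k1)) hA hu hf (cut_xm i (cut_fd hκ _)) sA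
  have t8 := fun j => errFZ hg hw (wt_e j) wt_a (p := -1) (by norm_num) (tst_dj j k1) hA hu' hf
    (cut_fd hκ _) sA
  have t9 := fun j => errFZ hg hw (wt_e j) (wt_e i) (p := -1) (by norm_num) (tst_dj j k1) hB hu hf
    (cut_fd hκ _) sB
  have t := (((((((((((t1.sub t2).add t3).add t4).sub t5).add t6).sub (t7 0)).sub (t7 1)).add
    (t8 0)).add (t8 1)).sub (t9 0)).sub (t9 1))
  simp only [sub_zero, add_zero] at t
  refine t.congr' ?_
  filter_upwards [eventually_gt_atTop 0] with L hL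
  have k2 := Far.tst_kL k1 hL
  rw [dvT_PP w va (tst_xm i k2) hA hu, dvT_PP w va k2 hA hu', dvT_PP w (ex i) k2 hB hu,
    PP_rp_add' (tst_xm i k2) hρ hA1 hu eA, PP_rp_add' k2 hρ hA1 hu' eA,
    PP_rp_add' k2 hA hB1 hu eB, da_xm k2]
  simp only [dj_xm k2, PP_rp_add k2 (tst_xm i (tst_dj _ k2)) hA hu, ← gz_xm hL, ← gz_0,
    ← gz_da k1 hL, ← gz_dj k1, map_add, map_smul, Fin.sum_univ_two, inner_add_left, inner_sub_left,
    inner_smul_left, Complex.conj_ofReal, wT_symmZ hw va (ex i)]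
  fin_cases i <;> simp [e2] <;> ring

end

end Vale.Agent.P352X.Conm
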