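import Vale.Agent.P352X.R.CONM.E
import Vale.Agent.P352Z.P352X.R.CONM.D

open Vale.Agent.P352G

/-!
# P352X, row CONM, part E: the contact terms (helper90)
-/

set_option linter.all false

open MeasureTheory Filter Topology Set
open scoped SchwartzMap ComplexConjugate ContDiff

namespace Vale.Agent.P352X.Conm

open Vale.Agent.P352 Vale.Agent.P352.GF Vale.Agent.P352.BW Vale.Agent.P352.H246
open Vale.Agent.P352.H496 Vale.Agent.P352.H755 Vale.Agent.P352.H15
open UniformSpace (Completion)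
open Complex (I)

noncomputable section

variable {D : Type*} [NormedAddCommGroup D] [InnerProductSpace ℂ D] [GrD D] {c : CtxZ D}

lemma Bs_rowZ (hg : GRPZ c) {L : ℝ} (hL : 0 < L) (m : Ix) :
    Bs L m = (Real.sqrt L)⁻¹ • scp L 1 (bas m 1) := by
  rw [← Bs_simZ hg hL, sim_bas]

lemma eigZ (hg : GRPZ c) {L : ℝ} (hL : 0 < L) {ψ : V → ℂ} (hψ : ContDiff ℝ ∞ ψ) {a : ℂ}
    (h : ∀ v, ψ (scp L 1 v) = a * ψ v) {k : ℕ} (γ' : Fin k → Ix) :
    ∑ γ : Fin k → Ix, ((∏ i, Bs L (γ' i) (γ i) : ℝ) : ℂ) *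
      iteratedFDeriv ℝ k ψ 0 (fun i => bas (γ i) 1) =
      (((Real.sqrt L)⁻¹ : ℝ) : ℂ) ^ k * (a * iteratedFDeriv ℝ k ψ 0 fun i => bas (γ' i) 1) := by
  have e1 : iteratedFDeriv ℝ k ψ 0 (fun i => Bs L (γ' i)) = ∑ γ : Fin k → Ix,
      ((∏ i, Bs L (γ' i) (γ i) : ℝ) : ℂ) * iteratedFDeriv ℝ k ψ 0 (fun i => bas (γ i) 1) := by
    conv_lhs => rw [funext fun i => bas_dec (Bs L (γ' i))]
    rw [ContinuousMultilinearMap.map_sum]
    refine Finset.sum_congr rfl fun γ _ => ?_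
    rw [ContinuousMultilinearMap.map_smul_univ, Complex.real_smul]
  have e2 : ψ ∘ scpL L 1 = a • ψ := funext fun v => h v
  have e3 := ContinuousLinearMap.iteratedFDeriv_comp_right (scpL L 1) hψ 0 (i := k)
    (by exact_mod_cast le_top)
  rw [e2, iteratedFDeriv_const_smul_apply (hψ.of_le (by exact_mod_cast le_top)).contDiffAt,
    map_zero] at e3
  have e4 := congrArg (fun M => M fun i => bas (γ' i) 1) e3
  simp only [ContinuousMultilinearMap.smul_apply,
    ContinuousMultilinearMap.compContinuousLinearMap_apply, scpL_apply, smul_eq_mul] at e4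
  rw [← e1, e4]
  simp only [Bs_rowZ hg hL]
  rw [ContinuousMultilinearMap.map_smul_univ, Complex.real_smul]
  simp

section

variable {i : Fin 2} {g : P3 → ℝ} {A B : ℝ → ℝ} {u : V → ℝ} (hg' : Tst g) (hA : Tst A)
  (hB : Tst B) (hu : Tst u)
include hg' hA hB hu

lemma dg_eigZ (hg : GRPZ c) (h1 : ∀ z ∈ tsupport u, ∀ᶠ y in 𝓝 (pl z), g y = 1) {k : ℕ} {L : ℝ}
    (hL : 0 < L) (x' : Ix × (Fin k → Ix)) (z : V) : ∑ x : Ix × (Fin k → Ix),
      ((Bs L x'.1 x.1 * ∏ j, Bs L (x'.2 j) (x.2 j) : ℝ) : ℂ) * dg x.2 (Gc i g A B u x.1) z =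
      (((Real.sqrt L)⁻¹ : ℝ) : ℂ) ^ k * dg x'.2 (Gc i g A B u x'.1) z := by
  have hq : 0 < Real.sqrt L := Real.sqrt_pos.2 hL
  have a1 := eigZ hg hL (sm_p1 i hA z) (a := Real.sqrt L) (fun v => by simp [p1, mul_assoc]) x'.2
  have a2 := eigZ hg hL (sm_p2 hB z) (a := 1) (fun v => by simp [p2]) x'.2
  have a3 : ∑ n, Bs L x'.1 n * (eta n * va n) = (Real.sqrt L)⁻¹ * (eta x'.1 * va x'.1) := by
    have : be (Bs L x'.1) = (Real.sqrt L)⁻¹ * be (bas x'.1 1) := by simp [Bs_rowZ hg hL]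
    rw [← md_bas, md_va, ← this, be, GF.mdot]
    exact Finset.sum_congr rfl fun n _ => by ring
  have a4 : ∑ n, Bs L x'.1 n * (eta n * ex i n) = eta x'.1 * ex i x'.1 := by
    have : tx (Bs L x'.1) i = tx (bas x'.1 1) i := by
      simp [Bs_rowZ hg hL, inv_mul_cancel_left₀ hq.ne']
    rw [← md_bas, md_ex, ← this, ← md_ex, GF.mdot]
    exact Finset.sum_congr rfl fun n _ => by ring
  have a5 := congrArg (fun t : ℝ => (t : ℂ)) a3
  have a6 := congrArg (fun t : ℝ => (t : ℂ)) a4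
  have hq' : (Real.sqrt L : ℂ) ≠ 0 := Complex.ofReal_ne_zero.2 hq.ne'
  simp only [dg_Gc hg' hA hB hu h1, Fintype.sum_prod_type]
  calc _ = u z * ((∑ n, ((Bs L x'.1 n * (eta n * va n) : ℝ) : ℂ)) * ∑ γ : Fin k → Ix,
        ((∏ j, Bs L (x'.2 j) (γ j) : ℝ) : ℂ) *
          iteratedFDeriv ℝ k (p1 i A z) 0 (fun j => bas (γ j) 1) +
        (∑ n, ((Bs L x'.1 n * (eta n * ex i n) : ℝ) : ℂ)) * ∑ γ : Fin k → Ix,
        ((∏ j, Bs L (x'.2 j) (γ j) : ℝ) : ℂ) *
          iteratedFDeriv ℝ k (p2 B z) 0 (fun j => bas (γ j) 1)) := by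
        rw [Finset.sum_mul_sum, Finset.sum_mul_sum, ← Finset.sum_add_distrib, Finset.mul_sum]
        refine Finset.sum_congr rfl fun n _ => ?_
        rw [← Finset.sum_add_distrib, Finset.mul_sum]
        refine Finset.sum_congr rfl fun γ _ => ?_
        push_cast
        ring
    _ = _ := by
        rw [a1, a2, ← Complex.ofReal_sum, ← Complex.ofReal_sum, a3, a4]
        push_cast
        field_simp

end

lemma ct_bdZ {k : ℕ} {d : ℤ} {O : (Fin (k + 3) → Ix) → Sch →L[ℂ] Completion D}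
    {q : (Fin (k + 3) → Ix) → V → ℂ} (h : OvZ c d O q) (f : Sch) (a : Ix × (Fin k → Ix) → ℝ) :
    ∃ C : ℝ, 0 ≤ C ∧ ∀ (t : Ix × (Fin k → Ix) → Sch) (F : V → ℝ),
      (∀ x z, t x z = ((a x * F z : ℝ) : ℂ)) →
      ‖inner ℂ (c.Th (ev f)) (ct O t)‖ ≤ C * ∫ z, |F z| := by
  obtain ⟨C, h0, hC⟩ := h.bd f
  refine ⟨∑ x, ∑ _j : Ix, C * |a x|, by positivity, fun t F ht => ?_⟩
  simp only [ct, inner_sum, inner_smul_right, Finset.sum_mul]
  refine (norm_sum_le _ _).trans (Finset.sum_le_sum fun x _ =>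
    (norm_sum_le _ _).trans (Finset.sum_le_sum fun j _ => ?_))
  rw [norm_mul, Complex.norm_real, Real.norm_eq_abs, abs_eta, one_mul]
  refine (hC _ _).trans (le_of_eq ?_)
  simp only [ht, Complex.norm_real, Real.norm_eq_abs, abs_mul, integral_const_mul, mul_assoc]

lemma ct_zeroZ (hg : GRPZ c) {k : ℕ} (hk : 2 ≤ k) {O : (Fin (k + 3) → Ix) → Sch →L[ℂ] Completion D}
    {q : (Fin (k + 3) → Ix) → V → ℂ} (h : OvZ c (5 - k) O q) (f : Sch)
    (t : Ix × (Fin k → Ix) → Sch) (ht : ∀ L : ℝ, 0 < L → ∀ (x' : Ix × (Fin k → Ix)) z,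
      ∑ x : Ix × (Fin k → Ix), ((Bs L x'.1 x.1 * ∏ j, Bs L (x'.2 j) (x.2 j) : ℝ) : ℂ) * t x z =
        (((Real.sqrt L)⁻¹ : ℝ) : ℂ) ^ k * t x' z) : inner ℂ (c.Th (ev f)) (ct O t) = 0 := by
  have i1 : ∀ (x : Ix × (Fin k → Ix)) j, Integrable (fun p => (eta j : ℂ) *
      (q (ix3 x.1 (j, j) x.2) p * conj (ft (ev f) p) * ft (ev (t x)) p)) (volume.restrict Fc) :=
    fun x j => (int_ft' (h.int _ f) _).const_mul _
  simp only [ct, inner_sum, inner_smul_right, h.rep, ← integral_const_mul]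
  simp only [← integral_finset_sum _ fun j _ => i1 _ j]
  rw [← integral_finset_sum _ fun x _ => integrable_finset_sum _ fun j _ => i1 x j]
  refine integral_eq_zero_of_ae (ae_of_all _ fun p => ?_)
  have := weightZ hg hk h (fun x => ft (ev (t x)) p) (fun L hL x' => by
    simp only [← ft_mul]
    have tt : ∀ (a : ℂ) (g : Sch), IsTest fun z => a * ev g z := fun a g => ⟨a • g, rfl⟩
    rw [← ft_sum _ fun x _ => tt _ (t x)]
    congr 1
    exact funext (ht L hL x')) p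
  have e := congrArg (fun y => conj (ft (ev f) p) * y) this
  simp only [mul_zero, Finset.mul_sum] at e
  simp only [Pi.zero_apply]
  rw [← e]
  exact Finset.sum_congr rfl fun x _ => Finset.sum_congr rfl fun j _ => by ring

variable {w : I2 → I2 → S2 →L[ℂ] Completion D}

/-- **The contact terms are small for thin test functions.** -/
theorem contactZ (hg : GRPZ c) (hs : STRUCTZ c) (hp : POLYZ c) (hw : TP2 c.Q c.T false w) (i : Fin 2)
    {f : Fn} (hf : IsTest f) : ∃ C : ℝ, 0 ≤ C ∧ ∀ (g : P3 → ℝ) (A B : ℝ → ℝ) (u : V → ℝ),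
      Tst g → Tst A → Tst B → Tst u → (∀ z ∈ tsupport u, ∀ᶠ y in 𝓝 (pl z), g y = 1) →
      (∀ z, deriv B (be z) * u z = A (be z) * u z) →
      ‖inner ℂ (dvT w va (PP (rp (xm i g) A) u) - dvT w va (PP (rp g A) (xv i u)) +
        dvT w (ex i) (PP (rp g B) u)) (c.Th f)‖ ≤
        C * ((∫ z, |A (be z) * u z|) + ∫ z, |B (be z) * u z|) := by
  obtain ⟨f, rfl⟩ := hf
  obtain ⟨k0, O, h1, -, h3⟩ := hs false w hw
  have hq : ∀ k : ℕ, ∃ q, OvZ c (5 - k) (O k) q := fun k =>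
    ex_ovZ hp (by simpa using h1 k) ⟨1 - k, by push_cast; ring⟩
  choose q hq using hq
  obtain ⟨C0, b0, hC0⟩ := ct_bdZ (hq 0) f fun x => eta x.1 * ex i x.1
  obtain ⟨C1, b1, hC1⟩ := ct_bdZ (hq 1) f fun x => eta x.1 * va x.1 * tx (bas (x.2 0) 1) i +
    eta x.1 * ex i x.1 * be (bas (x.2 0) 1)
  refine ⟨C0 + C1, by positivity, fun g A B u hg' hA hB hu e1 e2 => ?_⟩
  set a : ℕ → ℂ := fun k => (k.factorial : ℂ)⁻¹ *
    inner ℂ (c.Th (ev f)) (ct (O k) fun x => dg x.2 (Gc i g A B u x.1)) with ha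
  have e : dvT w va (PP (rp (xm i g) A) u) - dvT w va (PP (rp g A) (xv i u)) +
      dvT w (ex i) (PP (rp g B) u) = ∑ k ∈ Finset.range (k0 + 1),
        (k.factorial : ℂ)⁻¹ • ct (O k) fun x => dg x.2 (Gc i g A B u x.1) := by
    calc _ = ∑ n, ∑ j, (eta j : ℂ) • dvL w n (j, j) (Gc i g A B u n) := by
          simp only [dvT, Gc, map_add, map_smul, map_sub, smul_add, smul_sub, smul_smul,
            Finset.sum_add_distrib, Finset.sum_sub_distrib, Complex.ofReal_mul, mul_comm]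
      _ = _ := by
          simp only [dvL_ap, h3 _ _ _ (Gc_cs hg' hA hB hu _), ct, Fintype.sum_prod_type,
            Finset.smul_sum]
          symm
          rw [Finset.sum_comm]
          refine Finset.sum_congr rfl fun n _ => ?_
          symm
          rw [Finset.sum_comm]
          refine Finset.sum_congr rfl fun k _ => ?_
          rw [Finset.sum_comm]
          exact Finset.sum_congr rfl fun γ _ => Finset.sum_congr rfl fun j _ => smul_comm _ _ _
  have z2 : ∀ k, ‖a (k + 1 + 1)‖ = 0 := fun k => by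
    simp only [ha]
    rw [ct_zeroZ hg (by omega) (hq _) f _ fun L hL x' z => dg_eigZ hg' hA hB hu hg e1 hL x' z]
    simp
  have n0 : 0 ≤ ∫ z, |A (be z) * u z| := integral_nonneg fun _ => abs_nonneg _
  have n1 : 0 ≤ ∫ z, |B (be z) * u z| := integral_nonneg fun _ => abs_nonneg _
  have u0 := hC0 _ _ (dg_zero hg' hA hB hu e1 (i := i))
  have u1 := hC1 _ _ (dg_one hg' hA hB hu e1 e2 (i := i))
  rw [norm_inner_symm, e, inner_sum]
  simp only [inner_smul_right]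
  calc _ ≤ ∑ k ∈ Finset.range (k0 + 1), ‖a k‖ := norm_sum_le _ _
    _ ≤ ∑ k ∈ Finset.range (k0 + 1 + 1), ‖a k‖ := Finset.sum_le_sum_of_subset_of_nonneg
        (Finset.range_subset_range.2 (by omega)) fun _ _ _ => norm_nonneg _
    _ = ‖a 1‖ + ‖a 0‖ := by
        rw [Finset.sum_range_succ', Finset.sum_range_succ']
        simp [z2]
    _ ≤ _ := by
        simp only [ha, Nat.factorial_one, Nat.factorial_zero, Nat.cast_one, inv_one, one_mul]
        nlinarith [mul_nonneg b0 n0, mul_nonneg b1 n1]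

end

end Vale.Agent.P352X.Conm
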